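import Vale.Agent.P243.Round.Sweep

/-!
# P243, round symmetric bodies: thirteen axes

A weighted system of thirteen axes whose average of `|⟪u, ν⟫|` is at most `0.52128 ‖ν‖`: it
integrates polynomials of degree six exactly, and a sextic lies above the absolute value.
-/

noncomputable section

open MeasureTheory Set
open scoped RealInnerProductSpace ENNReal

namespace Vale.Agent.P243.Round

/-- The unit vector along `(p, q, s)`, of squared length `k`. -/
def dir (p q s k : ℝ) : V3 := (Real.sqrt k)⁻¹ • !₂[p, q, s]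

/-- The thirteen integer directions with squared lengths and weights. -/
def table : List (ℝ × ℝ × ℝ × ℝ × ℝ) :=
  [(1, 0, 0, 1, 2 / 21), (0, 1, 0, 1, 2 / 21), (0, 0, 1, 1, 2 / 21),
   (1, 1, 0, 2, 8 / 105), (1, -1, 0, 2, 8 / 105), (1, 0, 1, 2, 8 / 105), (1, 0, -1, 2, 8 / 105),
   (0, 1, 1, 2, 8 / 105), (0, 1, -1, 2, 8 / 105),
   (1, 1, 1, 3, 9 / 140), (1, 1, -1, 3, 9 / 140), (1, -1, 1, 3, 9 / 140), (1, -1, -1, 3, 9 / 140)]

/-- A sextic above the absolute value, in terms of the square. -/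
def major (S : ℝ) : ℝ :=
  3165961 / 21600000 + 3977161 / 2105280 * S - 208625 / 105264 * S ^ 2 + 78125 / 78948 * S ^ 3

lemma abs_le_major (t : ℝ) : |t| ≤ major (t ^ 2) := by
  have key : ∀ t : ℝ, 0 ≤ t → t ≤ major (t ^ 2) := by
    intro t ht
    have e : major (t ^ 2) - t = (t - 17 / 50) ^ 2 * ((t - 43 / 50) ^ 2 *
        (541375 / 315792 + 15625 / 6579 * t + 78125 / 78948 * t ^ 2)) := by
      unfold major; ring
    have : 0 ≤ (t - 17 / 50) ^ 2 * ((t - 43 / 50) ^ 2 *
        (541375 / 315792 + 15625 / 6579 * t + 78125 / 78948 * t ^ 2)) := by positivity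
    linarith
  have h := key |t| (abs_nonneg t)
  rwa [sq_abs] at h

lemma inner_dir (p q s k : ℝ) (ν : V3) :
    ⟪dir p q s k, ν⟫ = (Real.sqrt k)⁻¹ * (p * ν 0 + q * ν 1 + s * ν 2) := by
  rw [dir, real_inner_smul_left, PiLp.inner_apply, Fin.sum_univ_three]
  simp [mul_comm]

lemma table_spec : ∀ d ∈ table, 0 ≤ d.2.2.2.2 ∧ 0 < d.2.2.2.1 ∧
    d.1 ^ 2 + d.2.1 ^ 2 + d.2.2.1 ^ 2 = d.2.2.2.1 := by
  intro d hd
  simp only [table, List.mem_cons, List.not_mem_nil, or_false] at hd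
  rcases hd with rfl | rfl | rfl | rfl | rfl | rfl | rfl | rfl | rfl | rfl | rfl | rfl | rfl <;>
    norm_num

lemma norm_dir {p q s k : ℝ} (hk : 0 < k) (h : p ^ 2 + q ^ 2 + s ^ 2 = k) :
    ‖dir p q s k‖ = 1 := by
  rw [dir, norm_smul, EuclideanSpace.norm_eq, Fin.sum_univ_three]
  simp [h, (Real.sqrt_pos.2 hk).ne', abs_of_pos (Real.sqrt_pos.2 hk)]

/-- The weighted average of `|⟪u, ν⟫|` over the table, for a unit vector. -/
lemma table_sum {ν : V3} (hν : ν 0 ^ 2 + ν 1 ^ 2 + ν 2 ^ 2 = 1) :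
    (table.map fun d => d.2.2.2.2 * |⟪dir d.1 d.2.1 d.2.2.1 d.2.2.2.1, ν⟫|).sum ≤ 0.52128 := by
  calc _ ≤ (table.map fun d => d.2.2.2.2 *
        major ((d.1 * ν 0 + d.2.1 * ν 1 + d.2.2.1 * ν 2) ^ 2 / d.2.2.2.1)).sum := by
        refine List.sum_le_sum fun d hd => mul_le_mul_of_nonneg_left ?_ (table_spec d hd).1
        refine (abs_le_major _).trans_eq (congrArg major ?_)
        rw [inner_dir, mul_pow, inv_pow, Real.sq_sqrt (table_spec d hd).2.1.le]
        ring
    _ = 57614289937 / 110527200000 := by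
        simp only [table, List.map_cons, List.map_nil, List.sum_cons, List.sum_nil, major]
        have e : ν 2 ^ 2 = 1 - ν 0 ^ 2 - ν 1 ^ 2 := by linarith
        have e4 : ν 2 ^ 4 = (1 - ν 0 ^ 2 - ν 1 ^ 2) ^ 2 := by rw [← e]; ring
        have e6 : ν 2 ^ 6 = (1 - ν 0 ^ 2 - ν 1 ^ 2) ^ 3 := by rw [← e]; ring
        ring_nf
        rw [e, e4, e6]
        ring
    _ ≤ _ := by norm_num

/-- Thirteen sweeps of total length `t` spreading at most `0.52128 t` in every direction. -/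
lemma exists_sweeps {t : ℝ} (ht : 0 ≤ t) :
    ∃ L : List (Axis × ℝ), (∀ p ∈ L, 0 ≤ p.2) ∧ len L = t ∧
      ∀ ν, spread L ν ≤ 0.52128 * t * ‖ν‖ := by
  choose Φ hΦ using fun d : {d // d ∈ table} =>
    exists_axis (norm_dir (table_spec d.1 d.2).2.1 (table_spec d.1 d.2).2.2)
  refine ⟨table.attach.map fun d => (Φ d, t * d.1.2.2.2.2), ?_, ?_, fun ν => ?_⟩
  · intro p hp
    obtain ⟨d, -, rfl⟩ := List.mem_map.1 hp
    exact mul_nonneg ht (table_spec d.1 d.2).1
  · have h : (table.attach.map fun d => (Φ d, t * d.1.2.2.2.2)).map Prod.snd =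
        table.map fun d => t * d.2.2.2.2 := by
      rw [List.map_map]
      exact List.attach_map_val (l := table) (f := fun d => t * d.2.2.2.2)
    rw [len, h, List.sum_map_mul_left]
    simp only [table, List.map_cons, List.map_nil, List.sum_cons, List.sum_nil]
    norm_num
  · have h : (table.attach.map fun d => (Φ d, t * d.1.2.2.2.2)).map (fun p => p.2 * |⟪p.1.u, ν⟫|) =
        table.map fun d => t * (d.2.2.2.2 * |⟪dir d.1 d.2.1 d.2.2.1 d.2.2.2.1, ν⟫|) := by
      rw [List.map_map]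
      refine Eq.trans ?_ (List.attach_map_val (l := table)
        (f := fun d => t * (d.2.2.2.2 * |⟪dir d.1 d.2.1 d.2.2.1 d.2.2.2.1, ν⟫|)))
      refine List.map_congr_left fun d _ => ?_
      simp only [Function.comp_apply, hΦ]
      ring
    rw [spread, h, List.sum_map_mul_left, mul_comm (0.52128 : ℝ), mul_assoc]
    refine mul_le_mul_of_nonneg_left ?_ ht
    rcases eq_or_ne ν 0 with rfl | hν
    · simp
    have hn : 0 < ‖ν‖ := norm_pos_iff.2 hν
    have h1 : (‖ν‖⁻¹ • ν) 0 ^ 2 + (‖ν‖⁻¹ • ν) 1 ^ 2 + (‖ν‖⁻¹ • ν) 2 ^ 2 = 1 := by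
      have := EuclideanSpace.real_norm_sq_eq (‖ν‖⁻¹ • ν)
      rw [norm_smul, norm_inv, norm_norm, inv_mul_cancel₀ hn.ne', one_pow, Fin.sum_univ_three]
        at this
      exact this.symm
    refine le_trans (le_of_eq ?_) (mul_le_mul_of_nonneg_right (table_sum h1) hn.le)
    rw [← List.sum_map_mul_right]
    refine congrArg List.sum (List.map_congr_left fun d _ => ?_)
    rw [real_inner_smul_right, abs_mul, abs_inv, abs_norm]
    field_simp

end Vale.Agent.P243.Round
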