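import Mathlib

/-!
# P243, round symmetric bodies: orthonormal charts along an axis

For a unit vector `u` and an isometric frame `e` of its orthogonal plane the map
`(y, t) ↦ e y + t u` preserves volume.
-/

noncomputable section

open MeasureTheory Set
open scoped RealInnerProductSpace ENNReal

namespace Vale.Agent.P243.Round

/-- Space. -/
abbrev V3 := EuclideanSpace ℝ (Fin 3)
/-- The plane. -/
abbrev V2 := EuclideanSpace ℝ (Fin 2)

/-- A direction with an isometric frame of the plane orthogonal to it. -/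
structure Axis where
  /-- The direction. -/
  u : V3
  /-- The frame. -/
  e : V2 →ₗᵢ[ℝ] V3
  norm_u : ‖u‖ = 1
  perp : ∀ y, ⟪e y, u⟫ = 0

namespace Axis

variable (Φ : Axis)

/-- The chart of an axis. -/
def pt (q : V2 × ℝ) : V3 := Φ.e q.1 + q.2 • Φ.u

lemma continuous_pt : Continuous Φ.pt := by unfold pt; fun_prop

lemma norm_pt_sq (y : V2) (t : ℝ) : ‖Φ.pt (y, t)‖ ^ 2 = ‖y‖ ^ 2 + t ^ 2 := by
  rw [pt, norm_add_sq_real, real_inner_smul_right, Φ.perp, norm_smul, Φ.norm_u,
    LinearIsometry.norm_map, mul_one, Real.norm_eq_abs, sq_abs, mul_zero, mul_zero, add_zero]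

/-- The chart as a linear isometry of the orthogonal sum. -/
def iso : WithLp 2 (V2 × ℝ) ≃ₗᵢ[ℝ] V3 :=
  LinearIsometry.toLinearIsometryEquiv
    (({ toFun := fun q => Φ.pt (WithLp.ofLp q)
        map_add' := fun a b => by simp [pt, add_smul]; abel
        map_smul' := fun a b => by simp [pt, smul_add, smul_smul] } :
        WithLp 2 (V2 × ℝ) →ₗ[ℝ] V3).isometryOfInner fun a b => by
      simp only [LinearMap.coe_mk, AddHom.coe_mk, pt, inner_add_left, inner_add_right,
        real_inner_smul_left, real_inner_smul_right, Φ.perp, LinearIsometry.inner_map_map,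
        WithLp.prod_inner_apply, real_inner_self_eq_norm_sq, Φ.norm_u, RCLike.inner_apply, conj_trivial]
      rw [show ⟪Φ.u, Φ.e (WithLp.ofLp b).1⟫ = 0 by rw [real_inner_comm]; exact Φ.perp _]
      ring)
    (by simp [(WithLp.linearEquiv 2 ℝ (V2 × ℝ)).finrank_eq, Module.finrank_prod])

lemma iso_apply (q : WithLp 2 (V2 × ℝ)) : Φ.iso q = Φ.pt (WithLp.ofLp q) := rfl

lemma exists_pt (x : V3) : ∃ q, Φ.pt q = x :=
  ⟨WithLp.ofLp (Φ.iso.symm x), by rw [← iso_apply, LinearIsometryEquiv.apply_symm_apply]⟩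

lemma pt_add (a b : V2 × ℝ) : Φ.pt (a + b) = Φ.pt a + Φ.pt b := by
  simp only [pt, Prod.fst_add, Prod.snd_add, map_add, add_smul]; abel

lemma measurePreserving_pt :
    MeasurePreserving Φ.pt ((volume : Measure V2).prod (volume : Measure ℝ)) volume :=
  Φ.iso.measurePreserving.comp (WithLp.volume_preserving_toLp V2 ℝ)

end Axis

/-- Every direction has a frame. -/
lemma exists_axis {u : V3} (hu : ‖u‖ = 1) : ∃ Φ : Axis, Φ.u = u := by
  have : Fact (Module.finrank ℝ V3 = 2 + 1) := ⟨by simp⟩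
  have hu0 : u ≠ 0 := fun h => by simp [h] at hu
  refine ⟨⟨u, (Submodule.subtypeₗᵢ _).comp
    (OrthonormalBasis.fromOrthogonalSpanSingleton (𝕜 := ℝ) 2 hu0).repr.symm.toLinearIsometry,
    hu, fun y => ?_⟩, rfl⟩
  exact (Submodule.mem_orthogonal_singleton_iff_inner_left).1 (Subtype.mem _)

end Vale.Agent.P243.Round
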