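import Vale.Agent.P243.Round.Chart

/-!
# P243, round symmetric bodies: cylinders covering a ball

The density `1 / √(r² - ‖x‖²)` on a ball gives every line meeting the open ball mass `π`, so
cylinders covering a ball of radius `r` have base areas summing to at least `π r²`.
-/

noncomputable section

open MeasureTheory Set Metric Real
open scoped RealInnerProductSpace ENNReal

namespace Vale.Agent.P243.Round

/-- The density on the ball of radius `r` about the origin. -/
def dens (r : ℝ) : V3 → ℝ≥0∞ :=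
  (ball (0 : V3) r).indicator fun x => ENNReal.ofReal (Real.sqrt (r ^ 2 - ‖x‖ ^ 2))⁻¹

lemma measurable_dens (r : ℝ) : Measurable (dens r) :=
  Measurable.indicator (by fun_prop) measurableSet_ball

/-- The mass of the arcsine density on an interval is `π`. -/
lemma lintegral_arcsine {a : ℝ} (ha : 0 < a) :
    ∫⁻ t in Ioo (-a) a, ENNReal.ofReal (Real.sqrt (a ^ 2 - t ^ 2))⁻¹ = ENNReal.ofReal π := by
  set s := Ioo (-(π / 2)) (π / 2) with hs
  have him : (fun θ => a * Real.sin θ) '' s = Ioo (-a) a := by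
    ext t
    constructor
    · rintro ⟨θ, hθ, rfl⟩
      have hθ' := Ioo_subset_Icc_self hθ
      have h1 := Real.strictMonoOn_sin (left_mem_Icc.2 (by linarith [Real.pi_pos])) hθ' hθ.1
      have h2 := Real.strictMonoOn_sin hθ' (right_mem_Icc.2 (by linarith [Real.pi_pos])) hθ.2
      rw [Real.sin_neg, Real.sin_pi_div_two] at h1
      rw [Real.sin_pi_div_two] at h2
      constructor <;> nlinarith
    · rintro ⟨h1, h2⟩
      have hl : -1 < t / a := by rw [lt_div_iff₀ ha]; linarith
      have hu : t / a < 1 := by rw [div_lt_one ha]; exact h2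
      refine ⟨Real.arcsin (t / a), ⟨Real.neg_pi_div_two_lt_arcsin.2 hl,
        Real.arcsin_lt_pi_div_two.2 hu⟩, ?_⟩
      show a * Real.sin _ = t
      rw [Real.sin_arcsin hl.le hu.le]
      field_simp
  rw [← him, lintegral_image_eq_lintegral_abs_deriv_mul measurableSet_Ioo
    (fun θ _ => ((Real.hasDerivAt_sin θ).const_mul a).hasDerivWithinAt)
    (fun x hx y hy h => Real.injOn_sin (Ioo_subset_Icc_self hx) (Ioo_subset_Icc_self hy)
      (mul_left_cancel₀ ha.ne' h))]
  rw [setLIntegral_congr_fun measurableSet_Ioo (g := fun _ => (1 : ℝ≥0∞)) fun θ hθ => ?_]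
  · rw [setLIntegral_const, one_mul, Real.volume_Ioo]
    congr 1
    ring
  · have hc : 0 < Real.cos θ := Real.cos_pos_of_mem_Ioo hθ
    have hh : Real.sqrt (a ^ 2 - (a * Real.sin θ) ^ 2) = a * Real.cos θ := by
      rw [show a ^ 2 - (a * Real.sin θ) ^ 2 = (a * Real.cos θ) ^ 2 by
        rw [mul_pow, mul_pow, Real.cos_sq']; ring, Real.sqrt_sq (by positivity)]
    simp only [hh]
    rw [abs_of_pos (by positivity), ← ENNReal.ofReal_mul (by positivity),
      mul_inv_cancel₀ (by positivity), ENNReal.ofReal_one]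

/-- A line along an axis meets the ball in mass `π` or nothing. -/
lemma lintegral_line (Φ : Axis) {r : ℝ} (hr : 0 < r) (y : V2) :
    ∫⁻ t : ℝ, dens r (Φ.pt (y, t)) =
      (ball (0 : V2) r).indicator (fun _ => ENNReal.ofReal π) y := by
  have hmem : ∀ t, Φ.pt (y, t) ∈ ball (0 : V3) r ↔ ‖y‖ ^ 2 + t ^ 2 < r ^ 2 := fun t => by
    rw [mem_ball_zero_iff, ← Φ.norm_pt_sq, sq_lt_sq₀ (norm_nonneg _) hr.le]
  by_cases hy : y ∈ ball (0 : V2) r
  · rw [mem_ball_zero_iff] at hy
    rw [indicator_of_mem (mem_ball_zero_iff.2 hy)]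
    set a := Real.sqrt (r ^ 2 - ‖y‖ ^ 2) with ha
    have h0 : 0 < r ^ 2 - ‖y‖ ^ 2 := sub_pos.2 (pow_lt_pow_left₀ hy (norm_nonneg _) two_ne_zero)
    have ha0 : 0 < a := Real.sqrt_pos.2 h0
    have ha2 : a ^ 2 = r ^ 2 - ‖y‖ ^ 2 := Real.sq_sqrt h0.le
    rw [← lintegral_arcsine ha0, ← lintegral_indicator measurableSet_Ioo]
    refine lintegral_congr fun t => ?_
    by_cases ht : t ∈ Ioo (-a) a
    · have : Φ.pt (y, t) ∈ ball (0 : V3) r := (hmem t).2 (by nlinarith [ht.1, ht.2])
      rw [dens, indicator_of_mem this, indicator_of_mem ht, Φ.norm_pt_sq, ha2, sub_sub]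
    · have : Φ.pt (y, t) ∉ ball (0 : V3) r := fun h => ht (by
        have h1 := (hmem t).1 h
        rw [mem_Ioo, ← abs_lt]
        exact abs_lt_of_sq_lt_sq (by nlinarith) ha0.le)
      rw [dens, indicator_of_notMem this, indicator_of_notMem ht]
  · rw [indicator_of_notMem hy]
    refine (lintegral_congr fun t => indicator_of_notMem (fun h => hy ?_) _).trans lintegral_zero
    rw [mem_ball_zero_iff]
    exact abs_lt_of_sq_lt_sq (a := ‖y‖) (by nlinarith [(hmem t).1 h, sq_nonneg t]) hr.le
      |>.trans_le' (le_abs_self _)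

/-- Integrals of the density through a chart. -/
lemma lintegral_chart (Φ : Axis) {F : V3 → ℝ≥0∞} (hF : Measurable F) :
    ∫⁻ x, F x = ∫⁻ y : V2, ∫⁻ t : ℝ, F (Φ.pt (y, t)) := by
  rw [← Φ.measurePreserving_pt.lintegral_comp hF]
  exact lintegral_prod _ (hF.comp Φ.continuous_pt.measurable).aemeasurable

/-- The mass of the density. -/
lemma lintegral_dens {r : ℝ} (hr : 0 < r) :
    ∫⁻ x, dens r x = ENNReal.ofReal π * ENNReal.ofReal (π * r ^ 2) := by
  obtain ⟨Φ, -⟩ := exists_axis (u := EuclideanSpace.single (0 : Fin 3) (1 : ℝ)) (by simp)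
  simp only [lintegral_chart Φ (measurable_dens r), lintegral_line Φ hr]
  rw [lintegral_indicator_const measurableSet_ball, EuclideanSpace.volume_ball_fin_two,
    ← ENNReal.ofReal_pow hr.le, ← ENNReal.ofReal_mul (by positivity), mul_comm (r ^ 2)]

/-- Cylinders covering a ball have base areas summing to at least the area of its shadow. -/
theorem ball_covering (c : V3) {r : ℝ} (hr : 0 < r) {m : ℕ} (Φ : Fin m → Axis)
    (B : Fin m → Set V2) (hcov : ball c r ⊆ ⋃ i, {x | ∃ y ∈ B i, ∃ t, x = (Φ i).pt (y, t)}) :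
    ENNReal.ofReal (π * r ^ 2) ≤ ∑ i, volume (B i) := by
  choose q hq using fun i => (Φ i).exists_pt c
  set D : Fin m → Set V2 := fun i => (fun y => (q i).1 + y) ⁻¹' toMeasurable volume (B i) with hD
  have hDm : ∀ i, MeasurableSet (D i) := fun i =>
    (measurableSet_toMeasurable volume (B i)).preimage (measurable_const_add _)
  have hDv : ∀ i, volume (D i) = volume (B i) := fun i => by
    rw [hD, measure_preimage_add, measure_toMeasurable]
  set cy : Fin m → Set V3 := fun i =>
    (fun x => (WithLp.ofLp ((Φ i).iso.symm x)).1) ⁻¹' D i with hcy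
  have hiff : ∀ i y t, (Φ i).pt (y, t) ∈ cy i ↔ y ∈ D i := fun i y t => by
    rw [hcy, show (Φ i).pt (y, t) = (Φ i).iso (WithLp.toLp 2 (y, t)) from rfl]
    simp
  have hcym : ∀ i, MeasurableSet (cy i) := fun i =>
    (hDm i).preimage (by fun_prop : Measurable fun x => (WithLp.ofLp ((Φ i).iso.symm x)).1)
  have hone : ∀ i, ∫⁻ x, (cy i).indicator (dens r) x ≤ ENNReal.ofReal π * volume (B i) := by
    intro i
    rw [lintegral_chart (Φ i) ((measurable_dens r).indicator (hcym i)), ← hDv,
      ← lintegral_indicator_const (hDm i)]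
    refine lintegral_mono fun y => ?_
    by_cases hy : y ∈ D i
    · rw [indicator_of_mem hy]
      refine (lintegral_mono fun t => indicator_le_self _ _ _).trans ?_
      rw [lintegral_line _ hr]
      exact indicator_le_self' (fun _ _ => zero_le) _
    · rw [indicator_of_notMem hy]
      exact ((lintegral_congr fun t => indicator_of_notMem (fun h => hy ((hiff i y t).1 h)) _).trans
        lintegral_zero).le
  have hsum : ∫⁻ x, dens r x ≤ ∑ i, ∫⁻ x, (cy i).indicator (dens r) x := by
    rw [← lintegral_finsetSum _ fun i _ => (measurable_dens r).indicator (hcym i)]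
    refine lintegral_mono fun x => ?_
    by_cases hx : x ∈ ball (0 : V3) r
    · obtain ⟨i, y, hy, t, hxy⟩ := mem_iUnion.1 (hcov (show c + x ∈ ball c r by
        simpa [dist_eq_norm] using hx))
      obtain ⟨⟨y', t'⟩, hx'⟩ := (Φ i).exists_pt x
      have he : ((q i).1 + y', (q i).2 + t') = (y, t) := by
        apply (WithLp.toLp_injective 2)
        apply (Φ i).iso.injective
        show (Φ i).pt (q i + (y', t')) = (Φ i).pt (y, t)
        rw [(Φ i).pt_add, hq, hx', hxy]
      have hmem : x ∈ cy i := by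
        rw [← hx', hiff]
        show (q i).1 + y' ∈ toMeasurable volume (B i)
        rw [show (q i).1 + y' = y from congrArg Prod.fst he]
        exact subset_toMeasurable _ _ hy
      exact le_trans (le_of_eq (indicator_of_mem hmem (dens r)).symm)
        (Finset.single_le_sum (f := fun i => (cy i).indicator (dens r) x)
          (fun _ _ => zero_le) (Finset.mem_univ i))
    · simp [dens, hx]
  have h := (lintegral_dens hr ▸ hsum).trans (Finset.sum_le_sum fun i _ => hone i)
  rw [← Finset.mul_sum] at h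
  exact (ENNReal.mul_le_mul_iff_right
    (ENNReal.ofReal_pos.2 Real.pi_pos).ne' ENNReal.ofReal_ne_top).1 h

end Vale.Agent.P243.Round
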