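import Mathlib

/-!
P243, round symmetric bodies: the statement exchanged between the blocks.
-/

noncomputable section

open MeasureTheory
open scoped RealInnerProductSpace ENNReal

namespace Vale.Agent.P243.Round

/-- Ball's bound: slabs in a weighted frame of unit vectors bound a body of volume at most that of
the cube. -/
def SlabVolume : Prop :=
  ∀ (N : ℕ) (v : Fin N → EuclideanSpace ℝ (Fin 3)) (a : Fin N → ℝ),
    (∀ i, ‖v i‖ = 1) → (∀ i, 0 ≤ a i) → (∀ x, ∑ i, a i * ⟪v i, x⟫ ^ 2 = ‖x‖ ^ 2) →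
    ∀ ρ : ℝ, 0 < ρ →
      volume {x : EuclideanSpace ℝ (Fin 3) | ∀ i, |⟪v i, x⟫| < ρ} ≤ ENNReal.ofReal (8 * ρ ^ 3)

end Vale.Agent.P243.Round
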