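import Vale.Agent.P243.Round.Cylinders

/-!
# P243, round symmetric bodies: sweeping along axes

Adding a segment `[-s, s] u` to a convex body adds at least `2 s` times the area of the shadow in
direction `u` to its volume.
-/

noncomputable section

open MeasureTheory Set Metric
open scoped RealInnerProductSpace ENNReal Pointwise

namespace Vale.Agent.P243.Round

namespace Axis

variable (Φ : Axis)

/-- The shadow along an axis. -/
def shadow (W : Set V3) : Set V2 := {y | ∃ t : ℝ, Φ.pt (y, t) ∈ W}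

/-- The segment `[-s, s] u`. -/
def seg (s : ℝ) : Set V3 := (fun σ : ℝ => σ • Φ.u) '' Icc (-s) s

lemma isCompact_seg (s : ℝ) : IsCompact (Φ.seg s) := isCompact_Icc.image (by fun_prop)

lemma convex_seg (s : ℝ) : Convex ℝ (Φ.seg s) :=
  (convex_Icc _ _).linear_image (LinearMap.toSpanSingleton ℝ V3 Φ.u)

lemma measurableSet_shadow {W : Set V3} (hW : IsCompact W) : MeasurableSet (Φ.shadow W) := by
  have : Φ.shadow W = (fun x => (WithLp.ofLp (Φ.iso.symm x)).1) '' W := by
    ext y
    constructor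
    · rintro ⟨t, ht⟩
      refine ⟨_, ht, ?_⟩
      show (WithLp.ofLp (Φ.iso.symm (Φ.iso (WithLp.toLp 2 (y, t))))).1 = y
      simp
    · rintro ⟨x, hx, rfl⟩
      refine ⟨(WithLp.ofLp (Φ.iso.symm x)).2, ?_⟩
      show Φ.iso (Φ.iso.symm x) ∈ W
      simpa
  rw [this]
  exact (hW.image (by fun_prop)).measurableSet

/-- One sweep. -/
lemma volume_sweep {W : Set V3} (hW : IsCompact W) (hWc : Convex ℝ W) {s : ℝ} (hs : 0 ≤ s) :
    volume W + ENNReal.ofReal (2 * s) * volume (Φ.shadow W) ≤ volume (W + Φ.seg s) := by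
  have hW' : MeasurableSet (W + Φ.seg s) := (hW.add (Φ.isCompact_seg s)).measurableSet
  have hfib : ∀ S : Set V3, MeasurableSet S →
      volume S = ∫⁻ y : V2, volume {t : ℝ | Φ.pt (y, t) ∈ S} := fun S hS => by
    rw [← Φ.measurePreserving_pt.measure_preimage hS.nullMeasurableSet,
      Measure.prod_apply (hS.preimage Φ.continuous_pt.measurable)]
    rfl
  rw [hfib W hW.measurableSet, hfib _ hW', ← lintegral_indicator_const (Φ.measurableSet_shadow hW),
    ← lintegral_add_right _ (measurable_const.indicator (Φ.measurableSet_shadow hW))]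
  refine lintegral_mono fun y => ?_
  by_cases hy : y ∈ Φ.shadow W
  swap
  · rw [indicator_of_notMem hy, add_zero]
    convert zero_le (a := volume {t : ℝ | Φ.pt (y, t) ∈ W + Φ.seg s})
    have : {t : ℝ | Φ.pt (y, t) ∈ W} = ∅ := eq_empty_of_forall_notMem fun t ht => hy ⟨t, ht⟩
    rw [this, measure_empty]
  rw [indicator_of_mem hy]
  set I := {t : ℝ | Φ.pt (y, t) ∈ W} with hI
  have hIc : IsCompact I := by
    refine IsCompact.of_isClosed_subset
      (hW.image (f := fun x => (WithLp.ofLp (Φ.iso.symm x)).2) (by fun_prop))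
      (hW.isClosed.preimage (Φ.continuous_pt.comp (Continuous.prodMk_right y)))
      fun t ht => ⟨_, ht, ?_⟩
    show (WithLp.ofLp (Φ.iso.symm (Φ.iso (WithLp.toLp 2 (y, t))))).2 = t
    simp
  have hIv : Convex ℝ I := by
    intro a ha b hb α β hα hβ hαβ
    show Φ.pt (y, α • a + β • b) ∈ W
    rw [show Φ.pt (y, α • a + β • b) = α • Φ.pt (y, a) + β • Φ.pt (y, b) by
      simp only [pt, smul_add, smul_smul, add_smul, smul_eq_mul]
      rw [add_add_add_comm (α • _), ← add_smul α β (Φ.e y), hαβ, one_smul]]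
    exact hWc ha hb hα hβ hαβ
  have hne : I.Nonempty := hy
  set a := sInf I
  set b := sSup I
  have hab : a ≤ b := csInf_le_csSup hne hIc.bddBelow hIc.bddAbove
  have hIeq : I = Icc a b := subset_antisymm
    (fun t ht => ⟨csInf_le hIc.bddBelow ht, le_csSup hIc.bddAbove ht⟩)
    (hIv.ordConnected.out (hIc.sInf_mem hne) (hIc.sSup_mem hne))
  have hsub : Icc (a - s) (b + s) ⊆ {t : ℝ | Φ.pt (y, t) ∈ W + Φ.seg s} := by
    intro t ht
    have hw : max a (min t b) ∈ I := by
      rw [hIeq]; exact ⟨le_max_left _ _, max_le hab (min_le_right _ _)⟩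
    refine ⟨_, hw, _, ⟨t - max a (min t b), ⟨?_, ?_⟩, rfl⟩, ?_⟩
    · rcases max_cases a (min t b) with h | h <;> rcases min_cases t b with h' | h' <;>
        linarith [ht.1, ht.2, h.1, h.2, h'.1, h'.2]
    · rcases max_cases a (min t b) with h | h <;> rcases min_cases t b with h' | h' <;>
        linarith [ht.1, ht.2, h.1, h.2, h'.1, h'.2]
    · simp only [pt]; module
  rw [hIeq, Real.volume_Icc, ← ENNReal.ofReal_add (by linarith) (by linarith)]
  refine le_trans ?_ (measure_mono hsub)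
  rw [Real.volume_Icc]
  exact ENNReal.ofReal_le_ofReal (by linarith)

end Axis

/-- The body swept along a list of axes with lengths. -/
def sweep (K : Set V3) : List (Axis × ℝ) → Set V3
  | [] => K
  | p :: L => sweep K L + p.1.seg p.2

/-- Total length of a list of sweeps. -/
def len (L : List (Axis × ℝ)) : ℝ := (L.map Prod.snd).sum

/-- The support function of the segments of a list of sweeps. -/
def spread (L : List (Axis × ℝ)) (ν : V3) : ℝ := (L.map fun p => p.2 * |⟪p.1.u, ν⟫|).sum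

lemma sweep_spec {K : Set V3} (hK : IsCompact K) (hKc : Convex ℝ K) {A : ℝ≥0∞}
    (hA : ∀ Φ : Axis, A ≤ volume (Φ.shadow K)) :
    ∀ L : List (Axis × ℝ), (∀ p ∈ L, 0 ≤ p.2) →
      IsCompact (sweep K L) ∧ Convex ℝ (sweep K L) ∧ K ⊆ sweep K L ∧ 0 ≤ len L ∧
      volume K + ENNReal.ofReal (2 * len L) * A ≤ volume (sweep K L) ∧
      ∀ x ∈ sweep K L, ∃ k ∈ K, ∀ ν, ⟪x - k, ν⟫ ≤ spread L ν
  | [], _ => by
    refine ⟨hK, hKc, subset_rfl, by simp [len], by simp [len, sweep], fun x hx => ⟨x, hx, ?_⟩⟩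
    simp [spread]
  | (Φ, s) :: L, hpos => by
    obtain ⟨h1, h2, h3, h4, h5, h6⟩ :=
      sweep_spec hK hKc hA L fun p hp => hpos p (List.mem_cons_of_mem _ hp)
    have hs : 0 ≤ s := hpos (Φ, s) (List.mem_cons_self ..)
    have hlen : len ((Φ, s) :: L) = s + len L := by simp [len]
    refine ⟨h1.add (Φ.isCompact_seg s), h2.add (Φ.convex_seg s), ?_, by rw [hlen]; linarith, ?_, ?_⟩
    · intro x hx
      exact ⟨x, h3 hx, 0, ⟨0, ⟨by linarith, hs⟩, zero_smul ℝ _⟩, add_zero x⟩
    · refine le_trans ?_ (Φ.volume_sweep h1 h2 hs)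
      rw [hlen, mul_add, ENNReal.ofReal_add (by linarith) (by linarith), add_mul,
        add_comm (ENNReal.ofReal (2 * s) * A), ← add_assoc]
      refine add_le_add h5 (mul_le_mul_right ?_ _)
      exact (hA Φ).trans (measure_mono fun y ⟨t, ht⟩ => ⟨t, h3 ht⟩)
    · rintro x ⟨w, hw, z, ⟨σ, hσ, rfl⟩, rfl⟩
      obtain ⟨k, hk, hν⟩ := h6 w hw
      refine ⟨k, hk, fun ν => ?_⟩
      show ⟪w + σ • Φ.u - k, ν⟫ ≤ spread ((Φ, s) :: L) ν
      rw [add_sub_right_comm, inner_add_left, real_inner_smul_left,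
        show spread ((Φ, s) :: L) ν = s * |⟪Φ.u, ν⟫| + spread L ν by simp [spread]]
      have : σ * ⟪Φ.u, ν⟫ ≤ s * |⟪Φ.u, ν⟫| := (le_abs_self _).trans (by
        rw [abs_mul]; exact mul_le_mul_of_nonneg_right (abs_le.2 hσ) (abs_nonneg _))
      linarith [hν ν]

/-- A body swept by less than a small multiple of a ball inside it grows by that multiple. -/
lemma volume_sweep_le {K : Set V3} (hK : IsCompact K) (hKc : Convex ℝ K) {c : V3} {r δ : ℝ}
    (hr : 0 < r) (hball : ball c r ⊆ K) (hδ : 0 < δ) {A : ℝ≥0∞}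
    (hA : ∀ Φ : Axis, A ≤ volume (Φ.shadow K)) (L : List (Axis × ℝ)) (hL : ∀ p ∈ L, 0 ≤ p.2)
    (hspread : ∀ ν, spread L ν ≤ δ * ‖ν‖) :
    volume K + ENNReal.ofReal (2 * len L) * A ≤ ENNReal.ofReal ((1 + δ / r) ^ 3) * volume K := by
  obtain ⟨-, -, -, -, h5, h6⟩ := sweep_spec hK hKc hA L hL
  refine h5.trans (le_trans (measure_mono (t := AffineMap.homothety c (1 + δ / r) '' K) ?_) ?_)
  · intro x hx
    obtain ⟨k, hk, hν⟩ := h6 x hx
    have hz : ‖x - k‖ ≤ δ := by
      have h := (hν (x - k)).trans (hspread _)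
      rw [real_inner_self_eq_norm_sq] at h
      nlinarith [norm_nonneg (x - k)]
    have hq : c + (r / δ) • (x - k) ∈ K := by
      refine (closure_minimal hball hK.isClosed) ?_
      rw [closure_ball c hr.ne', mem_closedBall, dist_eq_norm, add_sub_cancel_left, norm_smul,
        Real.norm_eq_abs, abs_of_pos (by positivity), div_mul_eq_mul_div, div_le_iff₀ hδ]
      exact mul_le_mul_of_nonneg_left hz hr.le
    have hmem := hKc hk hq (show 0 ≤ 1 / (1 + δ / r) by positivity)
      (show 0 ≤ (δ / r) / (1 + δ / r) by positivity) (by field_simp)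
    refine ⟨_, hmem, ?_⟩
    have hd : (1 + δ / r) ≠ 0 := by positivity
    simp only [AffineMap.homothety_apply, vsub_eq_sub, vadd_eq_add, smul_sub, smul_add, smul_smul]
    rw [show (1 + δ / r) * (1 / (1 + δ / r)) = 1 by field_simp,
      show (1 + δ / r) * (δ / r / (1 + δ / r)) = δ / r by field_simp,
      show (1 + δ / r) * (δ / r / (1 + δ / r) * (r / δ)) = 1 by field_simp]
    module
  · rw [Measure.addHaar_image_homothety, finrank_euclideanSpace_fin,
      abs_of_pos (by positivity)]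

end Vale.Agent.P243.Round
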